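import Vale.Agent.P213.ExInf.HornEx

/-!
# `Ex` preserves Kan fibrations
-/

open CategoryTheory MonoidalCategory CartesianMonoidalCategory Simplicial Opposite
open HomotopicalAlgebra SSet.modelCategoryQuillen

namespace Vale.Agent.P213.ExInf

open Subdiv

variable {N : ℕ} {m : SimplexCategoryᵒᵖ}

section

variable (f g : Ch N →o Ch N) (hfg : ∀ S, f S ≤ g S)

/-- The vertices of the homotopy between comparable monotone maps. -/
noncomputable def hvtx (v : (sdΔ N).obj m) (e : (Δ[1] : SSet.{0}).obj m)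
    (i : Fin (m.unop.len + 1)) : Ch N :=
  if (SSet.stdSimplex.objEquiv e).toOrderHom i = 0 then f (vtx v i) else g (vtx v i)

variable {f g}

include hfg in
lemma hvtx_mono (v : (sdΔ N).obj m) (e : (Δ[1] : SSet.{0}).obj m) : Monotone (hvtx f g v e) := by
  intro i j hij
  have he := (SSet.stdSimplex.objEquiv e).toOrderHom.monotone hij
  unfold hvtx
  split_ifs with h₁ h₂
  · exact f.monotone (vtx_mono v hij)
  · exact (f.monotone (vtx_mono v hij)).trans (hfg _)
  · exact absurd (le_antisymm (le_of_le_of_eq he (by assumption)) (Fin.zero_le _)) h₁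
  · exact g.monotone (vtx_mono v hij)

/-- The homotopy between comparable monotone maps of chains. -/
noncomputable def nh : sdΔ N ⊗ Δ[1] ⟶ sdΔ N where
  app _ := ↾fun p => (hvtx_mono hfg p.1 p.2).functor
  naturality _ _ _ := ConcreteCategory.hom_ext _ _ fun _ => vtx_ext fun _ => rfl

lemma ι₀_nh : SSet.ι₀ ≫ nh hfg = nm f := by
  refine Glue.sset_hom_ext fun m v => vtx_ext fun i => ?_
  show (if (0 : Fin 2) = 0 then f (vtx v i) else g (vtx v i)) = f (vtx v i)
  exact if_pos rfl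

lemma ι₁_nh : SSet.ι₁ ≫ nh hfg = nm g := by
  refine Glue.sset_hom_ext fun m v => vtx_ext fun i => ?_
  show (if (1 : Fin 2) = 0 then f (vtx v i) else g (vtx v i)) = g (vtx v i)
  exact if_neg Fin.zero_ne_one.symm

variable {k : Fin (N + 1)}

lemma range_nh_le (hf : ∀ S, InH k S → InH k (f S)) (hg : ∀ S, InH k S → InH k (g S)) :
    SSet.Subcomplex.range ((hornCh k).ι ▷ Δ[1] ≫ nh hfg) ≤ hornCh k := by
  rintro m _ ⟨⟨v, e⟩, rfl⟩ i
  show InH k (if (SSet.stdSimplex.objEquiv e).toOrderHom i = 0 then f (vtx v.1 i)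
    else g (vtx v.1 i))
  split_ifs
  · exact hf _ (v.2 i)
  · exact hg _ (v.2 i)

end

/-- Add the vertex `k` to a subset. -/
noncomputable def addK (k : Fin (N + 1)) : Ch N →o Ch N :=
  relHom (fun j i => i = j ∨ i = k.1) fun j => ⟨j, Or.inl rfl⟩

/-- The constant subset `{k}`. -/
noncomputable def constK (k : Fin (N + 1)) : Ch N →o Ch N :=
  relHom (fun _ i => i = k.1) fun _ => ⟨k, rfl⟩

lemma le_addK (k : Fin (N + 1)) (S : Ch N) : S ≤ addK k S := fun ⟨i⟩ hi =>
  (mem_relHom S i).2 ⟨i, hi, Or.inl rfl⟩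

lemma constK_le_addK (k : Fin (N + 1)) (S : Ch N) : constK k S ≤ addK k S := fun ⟨i⟩ hi => by
  obtain ⟨j, hj, e⟩ := (mem_relHom S i).1 hi
  exact (mem_relHom S i).2 ⟨j, hj, Or.inr e⟩

lemma inH_addK {k : Fin (N + 1)} {S : Ch N} (h : InH k S) : InH k (addK k S) := by
  obtain ⟨j, hj, hj'⟩ := h
  refine ⟨j, hj, fun hm => ?_⟩
  obtain ⟨i, hi, e | e⟩ := (mem_relHom S j).1 hm
  · exact hj' ((Fin.ext e : j = i) ▸ hi)
  · exact hj (Fin.ext e)

lemma inH_constK {n : ℕ} (k : Fin (n + 2)) (S : Ch (n + 1)) : InH k (constK k S) := by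
  obtain ⟨j, hj⟩ := exists_ne k
  refine ⟨j, hj, fun hm => ?_⟩
  obtain ⟨i, -, e⟩ := (mem_relHom S j).1 hm
  exact hj (Fin.ext e)

/-- The chains of members of a horn form an anodyne subcomplex of the subdivided simplex. -/
theorem anodyne_hornCh {n : ℕ} (k : Fin (n + 2)) : SSet.anodyneExtensions (hornCh k).ι := by
  let a := constK_le_addK k
  let b : ∀ S, (OrderHom.id : Ch (n + 1) →o Ch (n + 1)) S ≤ addK k S := le_addK k
  refine anodyne_of_deformation (hornCh k) (nh a) (nh b)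
    (SSet.Subcomplex.lift _ (range_nh_le a (fun S _ => inH_constK k S) fun _ => inH_addK))
    (SSet.Subcomplex.lift _ (range_nh_le b (fun _ h => h) fun _ => inH_addK))
    (SSet.Subcomplex.lift (nm (constK k)) ?_) ?_ ?_ ?_ ?_ ?_
  · rintro m _ ⟨v, rfl⟩ i
    exact inH_constK k _
  · exact SSet.Subcomplex.lift_ι _ _
  · exact SSet.Subcomplex.lift_ι _ _
  · exact (SSet.Subcomplex.lift_ι _ _).trans (ι₀_nh _).symm
  · rw [ι₁_nh, ι₁_nh]
  · rw [ι₀_nh, nm_id]

/-- `Ex` preserves Kan fibrations. -/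
theorem fibration_ex_map {E B : SSet.{0}} (p : E ⟶ B) [Fibration p] : Fibration (SSet.ex.map p) := by
  rw [SSet.modelCategoryQuillen.fibration_iff]
  intro A B i hi
  simp only [SSet.modelCategoryQuillen.J, MorphismProperty.iSup_iff] at hi
  obtain ⟨n, ⟨k⟩⟩ := hi
  refine ⟨fun {f v} sq => ?_⟩
  let b : sdΔ (n + 1) ⟶ B := (SSet.yonedaEquiv v).down
  have hb : ∀ (d : ℕ) (φ : ⦋d⦌ ⟶ ⦋n + 1⦌) (hφ : InHorn k φ),
      fm f φ hφ ≫ p = nm (chMap φ) ≫ b := fun d φ hφ => by
    have h := ConcreteCategory.congr_hom (congr_app sq.w (op ⦋d⦌))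
      (⟨SSet.stdSimplex.objEquiv.symm φ, (inHorn_iff k φ).1 hφ⟩ :
        (Λ[n + 1, k] : SSet.{0}).obj _)
    refine (congrArg ULift.down h).trans ?_
    have hv : v = SSet.yonedaEquiv.symm (ULift.up b) := (Equiv.symm_apply_apply _ v).symm
    conv_lhs => rw [hv]
    rfl
  have w : fbar f ≫ p = (hornCh k).ι ≫ b := by
    refine Glue.sset_hom_ext fun m x => ?_
    refine (ConcreteCategory.congr_hom (congr_app (hb _ (retr (vtx x.1 (Fin.last _)))
      (inHorn_retr (x.2 _))) m) x.1).trans ?_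
    exact congrArg (b.app m) (vtx_ext fun i => chMap_retr (vtx_mono x.1 (Fin.le_last i)))
  have := anodyne_hornCh k p (mem_fibrations p)
  have sq' : CommSq (fbar f) (hornCh k).ι p b := ⟨w⟩
  refine ⟨⟨{ l := SSet.yonedaEquiv.symm (ULift.up sq'.lift), fac_left := ?_, fac_right := ?_ }⟩⟩
  · refine ι_comp_eq f _ fun d φ hφ => ?_
    conv_lhs => rw [← SSet.Subcomplex.lift_ι (nm (chMap φ)) (range_nm_le hφ)]
    rw [Category.assoc, sq'.fac_left, lift_fbar]
  · apply SSet.yonedaEquiv.injective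
    rw [SSet.yonedaEquiv_comp]
    refine (congrArg _ (Equiv.apply_symm_apply SSet.yonedaEquiv _)).trans ?_
    exact congrArg ULift.up sq'.fac_right

end Vale.Agent.P213.ExInf
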