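import Vale.Agent.P213.ExInf.ExFib
import Vale.Agent.P213.Ex.Pairing
import Mathlib.AlgebraicTopology.SimplicialSet.Presentable
import Mathlib.CategoryTheory.Functor.OfSequence
import Mathlib.CategoryTheory.Limits.FilteredColimitCommutesFiniteLimit
import Mathlib.CategoryTheory.Limits.Preserves.FunctorCategory

/-!
# The functor `Ex^∞`

It takes values in Kan complexes, its unit is anodyne, and it preserves Kan fibrations and
pullbacks.
-/

open CategoryTheory CategoryTheory.Limits Simplicial Opposite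
open HomotopicalAlgebra SSet.modelCategoryQuillen

namespace Vale.Agent.P213.ExInf

open Subdiv (toEx)

variable {X Y : SSet.{0}}

/-- The iterates of `Ex`. -/
noncomputable def exIter : ℕ → SSet.{0} ⥤ SSet.{0}
  | 0 => 𝟭 _
  | n + 1 => exIter n ⋙ SSet.ex

/-- The maps `Exⁿ X ⟶ Exⁿ⁺¹ X`. -/
noncomputable def exStep (n : ℕ) : exIter n ⟶ exIter (n + 1) where
  app X := toEx.app ((exIter n).obj X)
  naturality _ _ f := toEx.naturality ((exIter n).map f)

/-- The sequence of the iterates. -/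
noncomputable def exSeq : ℕ ⥤ (SSet.{0} ⥤ SSet.{0}) := Functor.ofSequence exStep

/-- Kan's functor `Ex^∞`. -/
noncomputable def exInf : SSet.{0} ⥤ SSet.{0} := exSeq.flip ⋙ colim

/-- The cocone defining `Ex^∞ X`. -/
noncomputable def exCocone (X : SSet.{0}) : Cocone (exSeq.flip.obj X) :=
  colimit.cocone (exSeq.flip.obj X)

/-- It is a colimit. -/
noncomputable def isColimitExCocone (X : SSet.{0}) : IsColimit (exCocone X) :=
  colimit.isColimit _

/-- The maps `Exⁿ X ⟶ Ex^∞ X`. -/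
noncomputable def exι (X : SSet.{0}) (n : ℕ) : (exIter n).obj X ⟶ exInf.obj X :=
  colimit.ι (exSeq.flip.obj X) n

/-- The unit `X ⟶ Ex^∞ X`. -/
noncomputable def toExInf (X : SSet.{0}) : X ⟶ exInf.obj X := exι X 0

lemma exι_naturality (f : X ⟶ Y) (n : ℕ) :
    (exIter n).map f ≫ exι Y n = exι X n ≫ exInf.map f :=
  (ι_colimMap (exSeq.flip.map f) n).symm

lemma toExInf_naturality (f : X ⟶ Y) : f ≫ toExInf Y = toExInf X ≫ exInf.map f :=
  exι_naturality f 0

lemma exSeq_map_succ (X : SSet.{0}) (n : ℕ) :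
    (exSeq.flip.obj X).map (homOfLE n.le_succ) = toEx.app ((exIter n).obj X) :=
  congrArg (fun t => t.app X) (Functor.ofSequence_map_homOfLE_succ exStep n)

lemma toEx_exι (X : SSet.{0}) (n : ℕ) :
    toEx.app ((exIter n).obj X) ≫ exι X (n + 1) = exι X n := by
  rw [← exSeq_map_succ]
  exact colimit.w (exSeq.flip.obj X) (homOfLE n.le_succ)

theorem anodyne_toExInf (X : SSet.{0}) : SSet.anodyneExtensions (toExInf X) := fun _ _ p hp =>
  HasLiftingProperty.transfiniteComposition.hasLiftingProperty_ι_app_bot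
    (colimit.isColimit (exSeq.flip.obj X)) fun n _ =>
      (exSeq_map_succ X n).symm ▸ Subdiv.anodyne_toEx _ p hp

instance exIter_preservesLimits : ∀ n, PreservesLimitsOfSize.{0, 0} (exIter n)
  | 0 => inferInstanceAs (PreservesLimitsOfSize.{0, 0} (𝟭 SSet.{0}))
  | n + 1 => by
    have := exIter_preservesLimits n
    exact inferInstanceAs (PreservesLimitsOfSize.{0, 0} (exIter n ⋙ SSet.ex))

instance : PreservesLimitsOfShape WalkingCospan exInf := by
  have : PreservesLimitsOfShape WalkingCospan exSeq.flip :=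
    preservesLimitsOfShape_of_evaluation _ _ fun n =>
      inferInstanceAs (PreservesLimitsOfShape WalkingCospan (exIter n))
  have : PreservesLimitsOfShape WalkingCospan (colim : (ℕ ⥤ SSet.{0}) ⥤ SSet.{0}) :=
    inferInstanceAs (PreservesLimitsOfShape WalkingCospan
      (colim : (ℕ ⥤ (SimplexCategoryᵒᵖ ⥤ Type)) ⥤ _))
  exact inferInstanceAs (PreservesLimitsOfShape WalkingCospan (exSeq.flip ⋙ colim))

theorem fibration_exIter_map (p : X ⟶ Y) [Fibration p] :
    ∀ n, Fibration ((exIter n).map p)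
  | 0 => inferInstanceAs (Fibration p)
  | n + 1 => by
    have := fibration_exIter_map p n
    exact fibration_ex_map ((exIter n).map p)

/-- `Ex^∞` preserves Kan fibrations. -/
theorem fibration_exInf_map {E S : SSet.{0}} (p : E ⟶ S) [Fibration p] :
    Fibration (exInf.map p) := by
  rw [SSet.modelCategoryQuillen.fibration_iff]
  intro _ _ i hi
  simp only [SSet.modelCategoryQuillen.J, MorphismProperty.iSup_iff] at hi
  obtain ⟨n, ⟨k⟩⟩ := hi
  refine ⟨fun {f v} sq => ?_⟩
  obtain ⟨a, f₀, hf₀⟩ : ∃ a, ∃ f₀ : _ ⟶ (exIter a).obj E, f₀ ≫ exι E a = f :=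
    IsFinitelyPresentable.exists_hom_of_isColimit (isColimitExCocone E) f
  obtain ⟨b, v₀, hv₀⟩ : ∃ b, ∃ v₀ : _ ⟶ (exIter b).obj S, v₀ ≫ exι S b = v :=
    IsFinitelyPresentable.exists_hom_of_isColimit (isColimitExCocone S) v
  obtain ⟨l, u, w, e⟩ := IsFinitelyPresentable.exists_eq_of_isColimit (isColimitExCocone S)
    (f₀ ≫ (exIter a).map p) (Λ[n + 1, k].ι ≫ v₀) (by
      change (f₀ ≫ (exIter a).map p) ≫ exι S a = (Λ[n + 1, k].ι ≫ v₀) ≫ exι S b
      rw [Category.assoc, exι_naturality, reassoc_of% hf₀, Category.assoc, hv₀, sq.w])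
  have := fibration_exIter_map p l
  let u' : (exIter a).obj E ⟶ (exIter l).obj E := (exSeq.flip.obj E).map u
  let w' : (exIter b).obj S ⟶ (exIter l).obj S := (exSeq.flip.obj S).map w
  have hu : u' ≫ exι E l = exι E a := colimit.w (exSeq.flip.obj E) u
  have hw : w' ≫ exι S l = exι S b := colimit.w (exSeq.flip.obj S) w
  have hn : u' ≫ (exIter l).map p = (exIter a).map p ≫ (exSeq.flip.obj S).map u :=
    (exSeq.flip.map p).naturality u
  have sq' : CommSq (f₀ ≫ u') Λ[n + 1, k].ι ((exIter l).map p) (v₀ ≫ w') :=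
    ⟨(Category.assoc _ _ _).trans ((congrArg (f₀ ≫ ·) hn).trans
      ((Category.assoc _ _ _).symm.trans (e.trans (Category.assoc _ _ _))))⟩
  refine ⟨⟨{ l := sq'.lift ≫ exι E l, fac_left := ?_, fac_right := ?_ }⟩⟩
  · rw [← Category.assoc, sq'.fac_left, Category.assoc, hu, hf₀]
  · rw [Category.assoc, ← exι_naturality, ← Category.assoc, sq'.fac_right, Category.assoc, hw,
      hv₀]

/-- `Ex^∞ X` is a Kan complex. -/
instance kanComplex_exInf (S : SSet.{0}) : SSet.KanComplex (exInf.obj S) := by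
  refine (isFibrant_iff _).2 ?_
  rw [SSet.modelCategoryQuillen.fibration_iff]
  intro _ _ i hi
  simp only [SSet.modelCategoryQuillen.J, MorphismProperty.iSup_iff] at hi
  obtain ⟨n, ⟨k⟩⟩ := hi
  refine ⟨fun {f v} sq => ?_⟩
  obtain ⟨a, f₀, hf₀⟩ : ∃ a, ∃ f₀ : _ ⟶ (exIter a).obj S, f₀ ≫ exι S a = f :=
    IsFinitelyPresentable.exists_hom_of_isColimit (isColimitExCocone S) f
  obtain ⟨g, hg⟩ := exists_filler (f₀ ≫ toEx.app ((exIter a).obj S))
  refine ⟨⟨{ l := g ≫ exι S (a + 2), fac_left := ?_, fac_right := terminal.hom_ext _ _ }⟩⟩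
  refine ((Category.assoc _ _ _).symm.trans (congrArg (· ≫ exι S (a + 2)) hg)).trans ?_
  simp only [Category.assoc]
  refine (congrArg (fun t => f₀ ≫ toEx.app ((exIter a).obj S) ≫ t) (toEx_exι S (a + 1))).trans ?_
  exact (congrArg (f₀ ≫ ·) (toEx_exι S a)).trans hf₀

end Vale.Agent.P213.ExInf
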