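import Vale.Agent.P213.ExInf.Transport
import Vale.Agent.P213.Ex.LastVertex
import Vale.Agent.P213.Glue.PosetNerve

/-!
# Horns in `Ex X`: Kan's extension lemma and fibrations

A horn in `Ex X` is the same as a map to `X` from the chains of nonempty subsets of `[N]` all of
whose members belong to the horn.
-/

open CategoryTheory MonoidalCategory CartesianMonoidalCategory Simplicial Opposite
open HomotopicalAlgebra SSet.modelCategoryQuillen

namespace Vale.Agent.P213.ExInf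

open Subdiv

variable {N d c : ℕ} {m : SimplexCategoryᵒᵖ} {X Y : SSet.{0}}

/-- The subdivided simplex. -/
noncomputable abbrev sdΔ (N : ℕ) : SSet.{0} := SimplexCategory.sd.{0}.obj ⦋N⦌

/-- The members of a chain of subsets. -/
noncomputable def vtx (v : (sdΔ N).obj m) (i : Fin (m.unop.len + 1)) : Ch N :=
  (v : ComposableArrows (Ch N) _).obj i

lemma vtx_mono (v : (sdΔ N).obj m) {i j : Fin (m.unop.len + 1)} (h : i ≤ j) :
    vtx v i ≤ vtx v j :=
  leOfHom ((v : ComposableArrows (Ch N) _).map (homOfLE h))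

lemma vtx_map {m' : SimplexCategoryᵒᵖ} (g : m ⟶ m') (v : (sdΔ N).obj m)
    (i : Fin (m'.unop.len + 1)) : vtx ((sdΔ N).map g v) i = vtx v (g.unop.toOrderHom i) := rfl

lemma vtx_nm (g : Ch N →o Ch d) (v : (sdΔ N).obj m) (i : Fin (m.unop.len + 1)) :
    vtx ((nm g).app m v) i = g (vtx v i) := rfl

lemma vtx_ext {v w : (sdΔ N).obj m} (h : ∀ i, vtx v i = vtx w i) : v = w :=
  nerve.ext_of_isThin (funext h)

/-- A subset belongs to the horn. -/
def InH (k : Fin (N + 1)) (S : Ch N) : Prop := ∃ j, j ≠ k ∧ ¬Mem S j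

lemma InH.of_le {k : Fin (N + 1)} {S T : Ch N} (h : InH k T) (hST : S ≤ T) : InH k S :=
  h.elim fun j hj => ⟨j, hj.1, fun hm => hj.2 (hST hm)⟩

/-- The chains of members of the horn. -/
def hornCh (k : Fin (N + 1)) : (sdΔ N).Subcomplex where
  obj _ := {v | ∀ i, InH k (vtx v i)}
  map g _ hv i := hv (g.unop.toOrderHom i)

/-- The simplices of the horn. -/
def InHorn (k : Fin (N + 1)) (φ : ⦋d⦌ ⟶ ⦋N⦌) : Prop :=
  ∃ j, j ≠ k ∧ ∀ i, (φ i : Fin (N + 1)) ≠ j

lemma InHorn.comp {k : Fin (N + 1)} {φ : ⦋d⦌ ⟶ ⦋N⦌} (h : InHorn k φ) (ψ : ⦋c⦌ ⟶ ⦋d⦌) :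
    InHorn k (ψ ≫ φ) :=
  h.elim fun j hj => ⟨j, hj.1, fun _ => hj.2 _⟩

lemma inHorn_iff (k : Fin (N + 1)) (φ : ⦋d⦌ ⟶ ⦋N⦌) :
    InHorn k φ ↔ SSet.stdSimplex.objEquiv.symm φ ∈ (Λ[N, k] : (Δ[N] : SSet.{0}).Subcomplex).obj
      (op ⦋d⦌) := by
  rw [SSet.mem_horn_iff_notMem_range]
  simp only [InHorn, Set.mem_range, not_exists, exists_prop]
  rfl

/-- The value at a simplex of a horn in `Ex X`. -/
noncomputable def fm {k : Fin (N + 1)} (f : (Λ[N, k] : SSet.{0}) ⟶ SSet.ex.obj X)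
    (φ : ⦋d⦌ ⟶ ⦋N⦌) (h : InHorn k φ) : sdΔ d ⟶ X :=
  (f.app (op ⦋d⦌) ⟨SSet.stdSimplex.objEquiv.symm φ, (inHorn_iff k φ).1 h⟩).down

variable {k : Fin (N + 1)} (f : (Λ[N, k] : SSet.{0}) ⟶ SSet.ex.obj X)

lemma fm_congr {φ φ' : ⦋d⦌ ⟶ ⦋N⦌} (e : φ = φ') (h : InHorn k φ) (h' : InHorn k φ') :
    fm f φ h = fm f φ' h' := by subst e; rfl

lemma fm_comp (ψ : ⦋c⦌ ⟶ ⦋d⦌) (φ : ⦋d⦌ ⟶ ⦋N⦌) (h : InHorn k φ) :
    fm f (ψ ≫ φ) (h.comp ψ) = nm (chMap ψ) ≫ fm f φ h :=
  congrArg ULift.down (ConcreteCategory.congr_hom (f.naturality ψ.op)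
    (⟨SSet.stdSimplex.objEquiv.symm φ, (inHorn_iff k φ).1 h⟩ : (Λ[N, k] : SSet.{0}).obj _))

open scoped Classical in
/-- The retraction of `[N]` onto a subset. -/
noncomputable def retr (S : Ch N) : ⦋N⦌ ⟶ ⦋N⦌ :=
  SimplexCategory.Hom.mk
    ⟨fun p : Fin (N + 1) => (insert ((Finset.univ.filter (Mem S)).min'
        ⟨top S, Finset.mem_filter.2 ⟨Finset.mem_univ _, top_mem S⟩⟩)
        (Finset.univ.filter fun j => Mem S j ∧ j ≤ p)).max' (Finset.insert_nonempty _ _),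
      fun p q hpq => by
        refine Finset.max'_subset _ (Finset.insert_subset_insert _ fun j hj => ?_)
        simp only [Finset.mem_filter, Finset.mem_univ, true_and] at hj ⊢
        exact ⟨hj.1, hj.2.trans hpq⟩⟩

open scoped Classical in
lemma retr_mem (S : Ch N) (p : Fin (N + 1)) : Mem S (retr S p) := by
  have h := Finset.max'_mem (insert ((Finset.univ.filter (Mem S)).min'
        ⟨top S, Finset.mem_filter.2 ⟨Finset.mem_univ _, top_mem S⟩⟩)
        (Finset.univ.filter fun j => Mem S j ∧ j ≤ p)) (Finset.insert_nonempty _ _)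
  suffices ∀ {j}, j ∈ insert ((Finset.univ.filter (Mem S)).min'
        ⟨top S, Finset.mem_filter.2 ⟨Finset.mem_univ _, top_mem S⟩⟩)
        (Finset.univ.filter fun j => Mem S j ∧ j ≤ p) → Mem S j from this h
  intro j hj
  rcases Finset.mem_insert.1 hj with rfl | e
  · exact (Finset.mem_filter.1 (Finset.min'_mem (Finset.univ.filter (Mem S)) _)).2
  · exact (Finset.mem_filter.1 e).2.1

open scoped Classical in
lemma retr_fix {S : Ch N} {p : Fin (N + 1)} (h : Mem S p) :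
    (retr S p : Fin (N + 1)) = p := by
  show (insert ((Finset.univ.filter (Mem S)).min'
        ⟨top S, Finset.mem_filter.2 ⟨Finset.mem_univ _, top_mem S⟩⟩)
        (Finset.univ.filter fun j => Mem S j ∧ j ≤ p)).max' (Finset.insert_nonempty _ _) = p
  refine le_antisymm (Finset.max'_le _ _ _ fun j hj => ?_) (Finset.le_max' _ _ ?_)
  · rcases Finset.mem_insert.1 hj with rfl | e
    · exact Finset.min'_le _ _ (by simp [h])
    · exact (Finset.mem_filter.1 e).2.2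
  · exact Finset.mem_insert_of_mem (by simp [h])

lemma chMap_retr {S T : Ch N} (h : T ≤ S) : chMap (retr S) T = T :=
  ch_ext fun i => by
    rw [mem_chMap]
    constructor
    · rintro ⟨j, hj, rfl⟩
      rw [retr_fix (h hj)]
      exact hj
    · exact fun hi => ⟨i, hi, retr_fix (h hi)⟩

lemma inHorn_retr {S : Ch N} (h : InH k S) : InHorn k (retr S) :=
  h.elim fun j hj => ⟨j, hj.1, fun p e => hj.2 (e ▸ retr_mem S p)⟩

/-- The value at a face of the horn. -/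
noncomputable def val (S : Ch N) (h : InH k S) : sdΔ N ⟶ X := fm f (retr S) (inHorn_retr h)

lemma fm_app {φ : ⦋d⦌ ⟶ ⦋N⦌} (hφ : InHorn k φ) (u : (sdΔ d).obj m) (S : Ch N) (hS : InH k S)
    (hu : ∀ i, chMap φ (vtx u i) ≤ S) :
    (fm f φ hφ).app m u = (val f S hS).app m ((nm (chMap φ)).app m u) := by
  let ρ := retr (vtx u (Fin.last _))
  have hρ : (nm (chMap ρ)).app m u = u :=
    vtx_ext fun i => chMap_retr (vtx_mono u (Fin.le_last i))
  have e : ρ ≫ φ = ρ ≫ φ ≫ retr S := by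
    ext p : 3
    exact (retr_fix (hu (Fin.last _) ((mem_chMap φ _ _).2 ⟨_, retr_mem _ _, rfl⟩))).symm
  have h₁ : ∀ (ψ : ⦋d⦌ ⟶ ⦋N⦌) (hψ : InHorn k ψ),
      (fm f ψ hψ).app m u = (fm f (ρ ≫ ψ) (hψ.comp ρ)).app m u := fun ψ hψ => by
    rw [fm_comp f ρ ψ hψ]
    exact congrArg ((fm f ψ hψ).app m) hρ.symm
  rw [h₁ φ hφ, fm_congr f e _ (((inHorn_retr hS).comp φ).comp ρ),
    ← h₁ (φ ≫ retr S) ((inHorn_retr hS).comp φ), fm_comp f φ (retr S) (inHorn_retr hS), val]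
  rfl

/-- The map on chains of members of the horn given by a horn in `Ex X`. -/
noncomputable def fbar : (hornCh k : SSet.{0}) ⟶ X where
  app m := ↾fun v => (val f (vtx v.1 (Fin.last _)) (v.2 _)).app m v.1
  naturality m m' g := by
    refine ConcreteCategory.hom_ext _ _ fun v => ?_
    change (val f (vtx v.1 (g.unop.toOrderHom (Fin.last _))) (v.2 _)).app m' ((sdΔ N).map g v.1)
      = X.map g ((val f (vtx v.1 (Fin.last _)) (v.2 _)).app m v.1)
    rw [← NatTrans.naturality_apply, val]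
    rw [fm_app f _ ((sdΔ N).map g v.1) (vtx v.1 (Fin.last _)) (v.2 _)]
    · refine congrArg _ (vtx_ext fun i => chMap_retr ?_)
      exact vtx_mono v.1 (g.unop.toOrderHom.monotone (Fin.le_last i))
    · intro i
      rw [vtx_map, chMap_retr (vtx_mono v.1 (g.unop.toOrderHom.monotone (Fin.le_last i)))]
      exact vtx_mono v.1 (Fin.le_last _)

lemma range_nm_le {φ : ⦋d⦌ ⟶ ⦋N⦌} (hφ : InHorn k φ) :
    SSet.Subcomplex.range (nm (chMap φ)) ≤ hornCh k := by
  rintro m _ ⟨u, rfl⟩ i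
  obtain ⟨j, hj, hj'⟩ := hφ
  refine ⟨j, hj, fun h => ?_⟩
  rw [vtx_nm, mem_chMap] at h
  obtain ⟨l, -, rfl⟩ := h
  exact hj' l rfl

lemma lift_fbar {φ : ⦋d⦌ ⟶ ⦋N⦌} (hφ : InHorn k φ) :
    SSet.Subcomplex.lift (nm (chMap φ)) (range_nm_le hφ) ≫ fbar f = fm f φ hφ := by
  refine Glue.sset_hom_ext fun m u => ?_
  exact (fm_app f hφ u _ _ fun i => vtx_mono ((nm (chMap φ)).app m u) (Fin.le_last i)).symm

/-- To check that a map to `Ex X` extends a horn it is enough to look at the chains of the horn. -/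
theorem ι_comp_eq (g : sdΔ N ⟶ X)
    (h : ∀ (d : ℕ) (φ : ⦋d⦌ ⟶ ⦋N⦌) (hφ : InHorn k φ), nm (chMap φ) ≫ g = fm f φ hφ) :
    (Λ[N, k] : (Δ[N] : SSet.{0}).Subcomplex).ι ≫ SSet.yonedaEquiv.symm (ULift.up g) = f := by
  refine Glue.sset_hom_ext fun m x => ?_
  obtain ⟨d, rfl⟩ : ∃ d, m = op ⦋d⦌ := ⟨_, rfl⟩
  obtain ⟨x, hx⟩ := x
  obtain ⟨φ, rfl⟩ := SSet.stdSimplex.objEquiv.symm.surjective x
  exact congrArg ULift.up (h d φ ((inHorn_iff k φ).2 hx))

/-! ### Kan's extension lemma -/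

open scoped Classical in
/-- The map of subdivided simplices given by any map of vertices. -/
noncomputable def imgHom (g : Fin (d + 1) → Fin (N + 1)) : Ch d →o Ch N where
  toFun S :=
    { finset := (S.finset.image fun j => ULift.up (g j.down))
      nonempty := S.nonempty.image _
      comparable := fun x y => le_total x.1 y.1 }
  monotone' _ _ h := Finset.image_subset_image h

lemma mem_imgHom (g : Fin (d + 1) → Fin (N + 1)) (S : Ch d) (i : Fin (N + 1)) :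
    Mem (imgHom g S) i ↔ ∃ j, Mem S j ∧ g j = i := by
  classical
  unfold imgHom Mem
  show ULift.up i ∈ S.finset.image (fun j => ULift.up (g j.down)) ↔ _
  simp [ULift.exists]

open scoped Classical in
/-- The vertex of the horn attached to a subset. -/
noncomputable def vert' (k : Fin (N + 1)) (S : Ch N) : Fin (N + 1) :=
  if InH k S then top S else k

lemma inH_imgHom {n : ℕ} (k : Fin (n + 2)) {a : ℕ} (q : Fin (a + 1) → Ch (n + 1))
    (hq : Monotone q) (S : Ch a) : InH k (imgHom (fun i => vert' k (q i)) S) := by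
  classical
  by_cases h : ∃ i, Mem S i ∧ InH k (q i)
  · obtain ⟨i₀, hi₀, hmax⟩ := (Finset.univ.filter fun i => Mem S i ∧ InH k (q i)).exists_max_image
      id (by obtain ⟨i, hi⟩ := h; exact ⟨i, by simp [hi]⟩)
    simp only [Finset.mem_filter, Finset.mem_univ, true_and] at hi₀ hmax
    obtain ⟨j, hj, hj'⟩ := hi₀.2
    refine ⟨j, hj, fun hm => ?_⟩
    obtain ⟨i, hi, e⟩ := (mem_imgHom _ S j).1 hm
    unfold vert' at e
    split_ifs at e with hI
    · exact hj' (hq (hmax i ⟨hi, hI⟩) (e ▸ top_mem (q i)))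
    · exact hj e.symm
  · obtain ⟨j, hj⟩ := exists_ne k
    refine ⟨j, hj, fun hm => ?_⟩
    obtain ⟨i, hi, e⟩ := (mem_imgHom _ S j).1 hm
    rw [vert', if_neg fun hI => h ⟨i, hi, hI⟩] at e
    exact hj e.symm

/-- The chain of vertices of the horn attached to a chain of subsets. -/
noncomputable def retrMap {n : ℕ} (k : Fin (n + 2)) (q : (sdΔ (n + 1)).obj m) :
    sdΔ m.unop.len ⟶ (hornCh k : SSet.{0}) :=
  SSet.Subcomplex.lift (nm (imgHom fun i => vert' k (vtx q i))) (by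
    rintro l _ ⟨u, rfl⟩ i
    exact inH_imgHom k _ (fun _ _ h => vtx_mono q h) (vtx u i))

/-- **Kan's lemma**: a horn in `Ex X` has a filler in `Ex (Ex X)`. -/
theorem exists_filler {n : ℕ} {k : Fin (n + 2)}
    (f : (Λ[n + 1, k] : SSet.{0}) ⟶ SSet.ex.obj X) :
    ∃ g : Δ[n + 1] ⟶ SSet.ex.obj (SSet.ex.obj X),
      (Λ[n + 1, k] : (Δ[n + 1] : SSet.{0}).Subcomplex).ι ≫ g = f ≫ toEx.app (SSet.ex.obj X) := by
  let Φ : sdΔ (n + 1) ⟶ SSet.ex.obj X :=
    { app := fun m => ↾fun q => ULift.up (retrMap k q ≫ fbar f)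
      naturality := fun m m' g => by
        ext q
        refine congrArg ULift.up ?_
        change retrMap k ((sdΔ (n + 1)).map g q) ≫ fbar f
          = nm (chMap g.unop) ≫ retrMap k q ≫ fbar f
        rw [← Category.assoc]
        congr 1
        refine Glue.sset_hom_ext fun l u => Subtype.ext (vtx_ext fun i => ch_ext fun p => ?_)
        show Mem (imgHom (fun j => vert' k (vtx ((sdΔ (n + 1)).map g q) j)) (vtx u i)) p ↔
          Mem (imgHom (fun j => vert' k (vtx q j)) (chMap g.unop (vtx u i))) p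
        simp only [mem_imgHom, mem_chMap, vtx_map]
        exact ⟨fun ⟨j, hj, e⟩ => ⟨_, ⟨j, hj, rfl⟩, e⟩,
          fun ⟨_, ⟨j, hj, e'⟩, e⟩ => ⟨j, hj, e' ▸ e⟩⟩ }
  refine ⟨SSet.yonedaEquiv.symm (ULift.up Φ), ι_comp_eq _ Φ fun d φ hφ => ?_⟩
  refine Glue.sset_hom_ext fun m q => congrArg ULift.up ?_
  obtain ⟨l, rfl⟩ : ∃ l, m = op ⦋l⦌ := ⟨_, rfl⟩
  let α : ⦋l⦌ ⟶ ⦋d⦌ := SimplexCategory.Hom.mk
    ⟨fun i => top (vtx q i), fun _ _ h => top_mono (vtx_mono q h)⟩
  change retrMap k ((nm (chMap φ)).app (op ⦋l⦌) q) ≫ fbar f = nm (chMap α) ≫ fm f φ hφ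
  rw [← lift_fbar f hφ, ← Category.assoc]
  congr 1
  refine Glue.sset_hom_ext fun l' u => Subtype.ext (vtx_ext fun i => ch_ext fun p => ?_)
  show Mem (imgHom (fun j : Fin (l + 1) => vert' k (vtx ((nm (chMap φ)).app (op ⦋l⦌) q) j))
    (vtx u i)) p ↔ Mem (chMap φ (chMap α (vtx u i))) p
  have hv : ∀ j : Fin (l + 1),
      vert' k (vtx ((nm (chMap φ)).app (op ⦋l⦌) q) j) = (φ (α j) : Fin (n + 2)) := fun j => by
    rw [vert', if_pos (range_nm_le hφ _ ⟨q, rfl⟩ j), vtx_nm, top_chMap]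
    rfl
  simp only [mem_imgHom, mem_chMap]
  constructor
  · rintro ⟨j, hj, e⟩
    exact ⟨_, ⟨j, hj, rfl⟩, (hv j).symm.trans e⟩
  · rintro ⟨_, ⟨j, hj, rfl⟩, e⟩
    exact ⟨j, hj, (hv j).trans e⟩

end Vale.Agent.P213.ExInf
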