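import Vale.Agent.P213.HT.MonoWE

/-!
# Transport of lifting problems along homotopies
-/

open CategoryTheory MonoidalCategory CartesianMonoidalCategory MonoidalClosed Simplicial Limits
open HomotopicalAlgebra SSet.modelCategoryQuillen

namespace Vale.Agent.P213.ExInf

open HT

attribute [local instance 2000] CategoryTheory.FunctorToTypes.monoidalClosed

variable {A B X Y : SSet.{0}}

/-- The end of the cylinder opposite to `ε` in the order of faces of `Δ[1]`. -/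
noncomputable def endAt (ε : Fin 2) (X : SSet.{0}) : X ⟶ X ⊗ Δ[1] :=
  toPoint X ≫ X ◁ SSet.stdSimplex.δ ε

@[simp] lemma endAt_one (X : SSet.{0}) : endAt 1 X = SSet.ι₀ := toPoint_δ_one X

@[simp] lemma endAt_zero (X : SSet.{0}) : endAt 0 X = SSet.ι₁ := toPoint_δ_zero X

lemma endAt_naturality (ε : Fin 2) (m : A ⟶ B) :
    endAt ε A ≫ m ▷ Δ[1] = m ≫ endAt ε B := by
  rw [endAt, endAt, Category.assoc, whisker_exchange, ← toPoint_naturality_assoc]

/-- A lift of a lifting problem against a fibration is transported along a homotopy of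
lifting problems. -/
theorem exists_transport (p : X ⟶ Y) [Fibration p] (m : A ⟶ B) [Mono m]
    (h : A ⊗ Δ[1] ⟶ X) (k : B ⊗ Δ[1] ⟶ Y) (w : h ≫ p = m ▷ Δ[1] ≫ k) (ε ε' : Fin 2)
    (G : B ⟶ X) (hG : m ≫ G = endAt ε A ≫ h) (hGp : G ≫ p = endAt ε B ≫ k) :
    ∃ G' : B ⟶ X, m ≫ G' = endAt ε' A ≫ h ∧ G' ≫ p = endAt ε' B ≫ k := by
  let po := Functor.PushoutObjObj.ofHasPushout (curriedTensor SSet.{0}) m
    (SSet.stdSimplex.{0}.δ ε : Δ[0] ⟶ Δ[1])
  let τ : po.pt ⟶ X := po.isPushout.desc (fst B Δ[0] ≫ G) h (by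
    dsimp
    have := isIso_toPoint A
    rw [← cancel_epi (toPoint A), ← toPoint_naturality_assoc, toPoint_fst_assoc, hG, endAt,
      Category.assoc])
  have hτ : τ ≫ p = po.ι ≫ k := by
    apply po.isPushout.hom_ext
    · rw [IsPushout.inl_desc_assoc, Category.assoc, hGp, Functor.PushoutObjObj.inl_ι_assoc]
      dsimp
      apply toPoint_hom_ext
      rw [toPoint_fst_assoc, endAt, Category.assoc]
    · rw [IsPushout.inr_desc_assoc, w, Functor.PushoutObjObj.inr_ι_assoc]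
      rfl
  have := SSet.anodyneExtensions_pushoutObjObjι po (anodyne_δ ε) p (mem_fibrations p)
  have sq : CommSq τ po.ι p k := ⟨hτ⟩
  refine ⟨endAt ε' B ≫ sq.lift, ?_, by simp⟩
  rw [← Category.assoc, ← endAt_naturality, Category.assoc,
    show m ▷ Δ[1] = po.inr ≫ po.ι from po.inr_ι.symm, Category.assoc, sq.fac_left,
    IsPushout.inr_desc]

/-- A subcomplex is anodyne if two homotopies of the ambient complex preserving it connect a map
into it to the identity, through a common end. -/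
theorem anodyne_of_deformation (S : B.Subcomplex) (H₁ H₂ : B ⊗ Δ[1] ⟶ B)
    (h₁ h₂ : (S : SSet.{0}) ⊗ Δ[1] ⟶ S) (r : B ⟶ S)
    (w₁ : h₁ ≫ S.ι = S.ι ▷ Δ[1] ≫ H₁) (w₂ : h₂ ≫ S.ι = S.ι ▷ Δ[1] ≫ H₂)
    (hr : r ≫ S.ι = SSet.ι₀ ≫ H₁) (hmid : SSet.ι₁ ≫ H₁ = SSet.ι₁ ≫ H₂)
    (hid : SSet.ι₀ ≫ H₂ = 𝟙 B) : SSet.anodyneExtensions S.ι := by
  intro X Y p hp
  have : Fibration p := ⟨hp⟩
  refine ⟨fun {u v} sq => ?_⟩
  have e₀ : S.ι ≫ r = SSet.ι₀ ≫ h₁ := by
    rw [← cancel_mono S.ι]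
    simp only [Category.assoc, hr, w₁, SSet.ι₀_comp_assoc]
  have e₁ : SSet.ι₁ ≫ h₁ = SSet.ι₁ ≫ h₂ := by
    rw [← cancel_mono S.ι]
    simp only [Category.assoc, w₁, w₂, SSet.ι₁_comp_assoc, hmid]
  have e₂ : SSet.ι₀ ≫ h₂ = 𝟙 _ := by
    rw [← cancel_mono S.ι]
    simp only [Category.assoc, w₂, SSet.ι₀_comp_assoc, hid, Category.comp_id, Category.id_comp]
  obtain ⟨G₁, hG₁, hG₁p⟩ := exists_transport p S.ι (h₁ ≫ u) (H₁ ≫ v)
    (by rw [Category.assoc, sq.w, reassoc_of% w₁]) 1 0 (r ≫ u)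
    (by rw [endAt_one, reassoc_of% e₀])
    (by rw [endAt_one, Category.assoc, sq.w, reassoc_of% hr])
  obtain ⟨G, hG, hGp⟩ := exists_transport p S.ι (h₂ ≫ u) (H₂ ≫ v)
    (by rw [Category.assoc, sq.w, reassoc_of% w₂]) 0 1 G₁
    (by rw [hG₁, endAt_zero, reassoc_of% e₁])
    (by rw [hG₁p, endAt_zero, reassoc_of% hmid])
  refine ⟨⟨{ l := G, fac_left := ?_, fac_right := ?_ }⟩⟩
  · rw [hG, endAt_one, reassoc_of% e₂]
  · rw [hGp, endAt_one, reassoc_of% hid]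

end Vale.Agent.P213.ExInf
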