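import Vale.Agent.P213.ExInf.ExInfty
import Vale.Agent.P213.WE.TrivFib

/-!
# A Kan fibration is a weak equivalence iff it is a trivial fibration
-/

open CategoryTheory MonoidalCategory CartesianMonoidalCategory Limits Simplicial Opposite
open HomotopicalAlgebra SSet.modelCategoryQuillen MorphismProperty

namespace Vale.Agent.P213.ExInf

attribute [local instance 2000] CategoryTheory.FunctorToTypes.monoidalClosed

variable {X Y F : SSet.{0}}

/-- A weak equivalence which is a fibration between Kan complexes is a trivial fibration. -/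
theorem rlp_monomorphisms_of_isWE [SSet.KanComplex X] [SSet.KanComplex Y] (p : X ⟶ Y)
    [Fibration p] (hp : IsWE p) : (monomorphisms SSet.{0}).rlp p := by
  obtain ⟨s₀, hs₀⟩ := (hp X inferInstance).1 (𝟙 X)
  have hY : HtpcEqv (s₀ ≫ p) (𝟙 Y) := (hp Y inferInstance).2 _ _ (by
    simpa using hs₀.postcomp p)
  obtain ⟨h, h₀, h₁⟩ := (htpcEqv_iff.1 hY).exists_map
  have : HasLiftingProperty (SSet.ι₀ : Y ⟶ _) p := HT.anodyne_ι₀ _ p (mem_fibrations p)
  have sq : CommSq s₀ SSet.ι₀ p h := ⟨h₀.symm⟩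
  have hs : (SSet.ι₁ ≫ sq.lift) ≫ p = 𝟙 Y := by simp [h₁]
  have hH : Htpc (𝟙 X) (p ≫ SSet.ι₁ ≫ sq.lift) := htpcEqv_iff.1
    (hs₀.symm.trans ((HtpcEqv.of_htpc (Htpc.mk sq.lift sq.fac_left rfl)).precomp p))
  obtain ⟨H, H₀, H₁, Hp⟩ := HT.exists_vertical p _ hs hH
  exact HT.rlp_monomorphisms_of_vertical p _ hs H H₀ H₁ Hp

instance : SSet.KanComplex (Δ[0] : SSet.{0}) := by
  refine (isFibrant_iff _).2 ?_
  have : IsIso (terminal.from (Δ[0] : SSet.{0})) :=
    isIso_of_isTerminal SSet.stdSimplex.isTerminalObj₀ terminalIsTerminal _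
  infer_instance

/-- The fibres of a fibration which is a weak equivalence are contractible. -/
theorem rlp_monomorphisms_fibre (p : X ⟶ Y) [Fibration p] (hp : IsWE p) {i : F ⟶ X}
    {t : F ⟶ Δ[0]} {y : Δ[0] ⟶ Y} (pb : IsPullback i t p y) :
    (monomorphisms SSet.{0}).rlp t := by
  have ht : Fibration t := ⟨MorphismProperty.of_isPullback (P := J.{0}.rlp) pb
    ((SSet.modelCategoryQuillen.fibration_iff p).1 inferInstance)⟩
  have : SSet.KanComplex F := by
    refine (isFibrant_iff _).2 ?_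
    rw [show terminal.from F = t ≫ terminal.from _ from terminal.hom_ext _ _]
    have := (isFibrant_iff (Δ[0] : SSet.{0})).1 inferInstance
    infer_instance
  have hη : ∀ Z, IsWE (toExInf Z) := fun Z => isWE_of_anodyne (anodyne_toExInf Z)
  have := fibration_exInf_map p
  have hq : IsWE (exInf.map p) := IsWE.of_comp_left (hη X) (by
    rw [← toExInf_naturality]
    exact hp.comp (hη Y))
  have hEt : IsWE (exInf.map t) := isWE_of_rlp_I (by
    rw [← SSet.rlp_monomorphisms]
    exact MorphismProperty.of_isPullback (pb.map exInf) (rlp_monomorphisms_of_isWE _ hq))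
  refine rlp_monomorphisms_of_isWE t (IsWE.of_comp_right (hη _) ?_)
  rw [toExInf_naturality]
  exact (hη F).comp hEt

/-- The contraction of a simplex to its first vertex. -/
noncomputable def coneHom (n : ℕ) : Δ[n] ⊗ Δ[1] ⟶ (Δ[n] : SSet.{0}) where
  app m := ↾fun q => SSet.stdSimplex.objMk (n := ⦋n⦌) (m := m)
    ⟨fun i => if (SSet.stdSimplex.objEquiv q.2).toOrderHom i = 0 then 0
      else (SSet.stdSimplex.objEquiv q.1).toOrderHom i, fun i j hij => by
        have he := (SSet.stdSimplex.objEquiv q.2).toOrderHom.monotone hij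
        dsimp only
        split_ifs with h₁ h₂
        · exact le_refl _
        · exact Fin.zero_le _
        · exact absurd (le_antisymm (le_of_le_of_eq he (by assumption)) (Fin.zero_le _)) h₁
        · exact (SSet.stdSimplex.objEquiv q.1).toOrderHom.monotone hij⟩
  naturality _ _ _ := rfl

lemma ι₀_coneHom (n : ℕ) : SSet.ι₀ ≫ coneHom n = SSet.stdSimplex.isTerminalObj₀.from _ ≫
    SSet.stdSimplex.map (SimplexCategory.const ⦋0⦌ ⦋n⦌ 0) := by
  refine Glue.sset_hom_ext fun m x => SSet.stdSimplex.objEquiv.injective ?_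
  ext i : 3
  show (if (0 : Fin 2) = 0 then (0 : Fin (n + 1))
    else (SSet.stdSimplex.objEquiv x).toOrderHom i) = 0
  exact if_pos rfl

lemma ι₁_coneHom (n : ℕ) : SSet.ι₁ ≫ coneHom n = 𝟙 _ := by
  refine Glue.sset_hom_ext fun m x => SSet.stdSimplex.objEquiv.injective ?_
  ext i : 3
  show (if (1 : Fin 2) = 0 then (0 : Fin (n + 1))
    else (SSet.stdSimplex.objEquiv x).toOrderHom i) = (SSet.stdSimplex.objEquiv x).toOrderHom i
  exact if_neg Fin.zero_ne_one.symm

/-- A Kan fibration which is a weak equivalence is a trivial fibration. -/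
theorem rlp_I_of_isWE {E B : SSet.{0}} (p : E ⟶ B) [Fibration p] (hp : IsWE p) :
    SSet.modelCategoryQuillen.I.rlp p := by
  rintro _ _ _ ⟨n⟩
  refine ⟨fun {u v} sq => ?_⟩
  let K := coneHom n ≫ v
  let y : Δ[0] ⟶ B := SSet.stdSimplex.map (SimplexCategory.const ⦋0⦌ ⦋n⦌ 0) ≫ v
  have hK₀ : SSet.ι₀ ≫ K = SSet.stdSimplex.isTerminalObj₀.from _ ≫ y := by
    simp only [K, y, ← Category.assoc, ι₀_coneHom]
  have hK₁ : SSet.ι₁ ≫ K = v := by
    simp only [K, ← Category.assoc, ι₁_coneHom, Category.id_comp]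
  have : HasLiftingProperty (SSet.ι₁ : (∂Δ[n] : SSet.{0}) ⟶ _) p :=
    HT.anodyne_ι₁ _ p (mem_fibrations p)
  have sq₁ : CommSq u SSet.ι₁ p ((∂Δ[n]).ι ▷ Δ[1] ≫ K) := ⟨by
    rw [SSet.ι₁_comp_assoc, hK₁, sq.w]⟩
  have pb := IsPullback.of_hasPullback p y
  let a : (∂Δ[n] : SSet.{0}) ⟶ pullback p y :=
    pullback.lift (SSet.ι₀ ≫ sq₁.lift) (SSet.stdSimplex.isTerminalObj₀.from _) (by
      rw [Category.assoc, sq₁.fac_right, SSet.ι₀_comp_assoc, hK₀, ← Category.assoc]
      congr 1)
  have := rlp_monomorphisms_fibre p hp pb (∂Δ[n] : (Δ[n] : SSet.{0}).Subcomplex).ι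
    (monomorphisms.infer_property _)
  have sq₂ : CommSq a (∂Δ[n]).ι (pullback.snd p y) (SSet.stdSimplex.isTerminalObj₀.from _) :=
    ⟨SSet.stdSimplex.isTerminalObj₀.hom_ext _ _⟩
  obtain ⟨G, hG, hGp⟩ := exists_transport p (∂Δ[n]).ι sq₁.lift K sq₁.fac_right 1 0
    (sq₂.lift ≫ pullback.fst p y)
    (by rw [endAt_one, ← Category.assoc, sq₂.fac_left, pullback.lift_fst])
    (by rw [endAt_one, hK₀, Category.assoc, pullback.condition, ← Category.assoc, sq₂.fac_right])
  refine ⟨⟨{ l := G, fac_left := ?_, fac_right := ?_ }⟩⟩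
  · rw [hG, endAt_zero, sq₁.fac_left]
  · rw [hGp, endAt_zero, hK₁]

end Vale.Agent.P213.ExInf

namespace Vale.Agent.P213

open ExInf in
/-- A Kan fibration is a weak homotopy equivalence iff it is a trivial fibration. -/
theorem trivFibGoal : TrivFibGoal := by
  intro X Y p
  constructor
  · rintro ⟨hf, hw⟩
    have : Fibration p := ⟨hf⟩
    exact rlp_I_of_isWE p hw
  · intro h
    refine ⟨fun A B i hi => ?_, isWE_of_rlp_I h⟩
    rw [← SSet.rlp_monomorphisms] at h
    exact h i (J_le_monomorphisms i hi)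

end Vale.Agent.P213
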